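import Vale.Agent.P344.Defs

namespace Vale.Agent.P344

variable {n : ℕ}

/-- scalar multiples of base elements and list elements -/
def Pr (B : Set (Val n)) (l : List (Val n)) (w : Val n) : Prop :=
  w = 0 ∨ ∃ (c : ℂ) (v : Val n), (v ∈ B ∨ v ∈ l) ∧ w = c • v

inductive AC (B : Set (Val n)) : List (Val n) → Prop
  | nil : AC B []
  | cons {l : List (Val n)} {u v : Val n} : AC B l → Pr B l u → Pr B l v → AC B ((u + v) :: l)

lemma Pr_mono {B : Set (Val n)} {l : List (Val n)} {w a : Val n} (h : Pr B l w) :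
    Pr B (a :: l) w := by
  rcases h with h | ⟨c, v, hv, h⟩
  · exact Or.inl h
  · refine Or.inr ⟨c, v, ?_, h⟩
    rcases hv with hv | hv
    · exact Or.inl hv
    · exact Or.inr (List.mem_cons_of_mem _ hv)

lemma Pr_smul {B : Set (Val n)} {l : List (Val n)} {w : Val n} (h : Pr B l w) (c : ℂ) :
    Pr B l (c • w) := by
  rcases h with h | ⟨c', v, hv, h⟩
  · left; rw [h, smul_zero]
  · right; exact ⟨c * c', v, hv, by rw [h, smul_smul]⟩

lemma Pr_self {B : Set (Val n)} {l : List (Val n)} (a : Val n) : Pr B (a :: l) a :=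
  Or.inr ⟨1, a, Or.inr List.mem_cons_self, by simp⟩

/-- pushing a chain through a linear map -/
lemma push (B B' : Set (Val n)) (φ : Val n →ₗ[ℂ] Val n) (hB : ∀ b ∈ B, φ b = 0 ∨ φ b ∈ B')
    {l : List (Val n)} (h : AC B l) :
    ∃ l', AC B' l' ∧ l'.length ≤ l.length ∧ ∀ w, Pr B l w → Pr B' l' (φ w) := by
  induction h with
  | nil =>
    refine ⟨[], AC.nil, le_rfl, ?_⟩
    rintro w (h | ⟨c, v, hv, h⟩)
    · left; rw [h, map_zero]
    · rcases hv with hv | hv
      · rcases hB v hv with h0 | h0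
        · left; rw [h, map_smul, h0, smul_zero]
        · right; exact ⟨c, φ v, Or.inl h0, by rw [h, map_smul]⟩
      · simp at hv
  | @cons l u v hl hu hv ih =>
    obtain ⟨l', hl', hlen, hw⟩ := ih
    refine ⟨(φ u + φ v) :: l', AC.cons hl' (hw u hu) (hw v hv), by simp [hlen], ?_⟩
    rintro w (h | ⟨c, v', hv', h⟩)
    · left; rw [h, map_zero]
    · rcases hv' with hv' | hv'
      · exact Pr_mono (hw w (Or.inr ⟨c, v', Or.inl hv', h⟩))
      · rcases List.mem_cons.mp hv' with h1 | h1
        · right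
          exact ⟨c, φ u + φ v, Or.inr List.mem_cons_self, by rw [h, h1, map_smul, map_add]⟩
        · exact Pr_mono (hw w (Or.inr ⟨c, v', Or.inr h1, h⟩))

/-- pushing a chain through a linear map, saving one step -/
lemma push_strict (B B' : Set (Val n)) (φ : Val n →ₗ[ℂ] Val n) (κ : Val n →ₗ[ℂ] ℂ)
    (hB : ∀ b ∈ B, φ b = 0 ∨ φ b ∈ B') (hκ : ∀ b ∈ B, κ b = 0 ∨ φ b = 0)
    {l : List (Val n)} (h : AC B l) (hw : ∃ w, Pr B l w ∧ κ w ≠ 0 ∧ φ w ≠ 0) :
    ∃ l', AC B' l' ∧ l'.length + 1 ≤ l.length ∧ ∀ w, Pr B l w → Pr B' l' (φ w) := by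
  induction h with
  | nil =>
    exfalso
    obtain ⟨w, hw, h1, h2⟩ := hw
    rcases hw with h | ⟨c, v, hv, h⟩
    · rw [h, map_zero] at h1; exact h1 rfl
    · rcases hv with hv | hv
      · rcases hκ v hv with h0 | h0
        · rw [h, map_smul, h0, smul_zero] at h1; exact h1 rfl
        · rw [h, map_smul, h0, smul_zero] at h2; exact h2 rfl
      · simp at hv
  | @cons l u v hl hu hv ih =>
    by_cases hex : ∃ w, Pr B l w ∧ κ w ≠ 0 ∧ φ w ≠ 0
    · obtain ⟨l', hl', hlen, hw'⟩ := ih hex
      refine ⟨(φ u + φ v) :: l', AC.cons hl' (hw' u hu) (hw' v hv), by simp; omega, ?_⟩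
      rintro w (h | ⟨c, v', hv', h⟩)
      · left; rw [h, map_zero]
      · rcases hv' with hv' | hv'
        · exact Pr_mono (hw' w (Or.inr ⟨c, v', Or.inl hv', h⟩))
        · rcases List.mem_cons.mp hv' with h1 | h1
          · right
            exact ⟨c, φ u + φ v, Or.inr List.mem_cons_self, by rw [h, h1, map_smul, map_add]⟩
          · exact Pr_mono (hw' w (Or.inr ⟨c, v', Or.inr h1, h⟩))
    · push Not at hex
      obtain ⟨l', hl', hlen, hw'⟩ := push B B' φ hB hl
      obtain ⟨w, hwP, h1, h2⟩ := hw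
      -- w must be a multiple of u + v
      have hnew : ∃ c : ℂ, w = c • (u + v) := by
        rcases hwP with h | ⟨c, v', hv', h⟩
        · rw [h, map_zero] at h1; exact absurd rfl h1
        · rcases hv' with hv' | hv'
          · exact absurd (hex w (Or.inr ⟨c, v', Or.inl hv', h⟩) h1) h2
          · rcases List.mem_cons.mp hv' with h3 | h3
            · exact ⟨c, by rw [h, h3]⟩
            · exact absurd (hex w (Or.inr ⟨c, v', Or.inr h3, h⟩) h1) h2
      obtain ⟨c, hc⟩ := hnew
      have hκuv : κ u ≠ 0 ∨ κ v ≠ 0 := by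
        by_contra hcon
        push Not at hcon
        rw [hc, map_smul, map_add, hcon.1, hcon.2] at h1
        simp at h1
      have hφ : φ u = 0 ∨ φ v = 0 := by
        rcases hκuv with h3 | h3
        · exact Or.inl (hex u hu h3)
        · exact Or.inr (hex v hv h3)
      have hsum : Pr B' l' (φ (u + v)) := by
        rw [map_add]
        rcases hφ with h3 | h3
        · rw [h3, zero_add]; exact hw' v hv
        · rw [h3, add_zero]; exact hw' u hu
      refine ⟨l', hl', by simp; omega, ?_⟩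
      rintro w' (h | ⟨c', v', hv', h⟩)
      · left; rw [h, map_zero]
      · rcases hv' with hv' | hv'
        · exact hw' w' (Or.inr ⟨c', v', Or.inl hv', h⟩)
        · rcases List.mem_cons.mp hv' with h3 | h3
          · rw [h, h3, map_smul]; exact Pr_smul hsum c'
          · exact hw' w' (Or.inr ⟨c', v', Or.inr h3, h⟩)

end Vale.Agent.P344
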