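import Mathlib

namespace Vale.Agent.P344

/-- A value computed by a linear circuit on inputs `x_0, …, x_{n-1}`, as a function of the
input. -/
abbrev Val (n : ℕ) : Type := (Fin n → ℂ) → ℂ

/-- The values available once the gates with values `l` have been computed: the constant `0`, the
inputs, and the gate values. -/
def Avail {n : ℕ} (l : List (Val n)) (v : Val n) : Prop :=
  v = (fun _ => 0) ∨ (∃ i : Fin n, v = fun x => x i) ∨ v ∈ l

/-- `Circuit l`: `l` lists (last gate first) the values computed by the gates of a linear circuit.
Each gate computes `u + v`, `u - v` or `c * u` from available values. -/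
inductive Circuit {n : ℕ} : List (Val n) → Prop
  | nil : Circuit []
  | add {l : List (Val n)} {u v : Val n} :
      Circuit l → Avail l u → Avail l v → Circuit ((fun x => u x + v x) :: l)
  | sub {l : List (Val n)} {u v : Val n} :
      Circuit l → Avail l u → Avail l v → Circuit ((fun x => u x - v x) :: l)
  | smul {l : List (Val n)} {u : Val n} (c : ℂ) :
      Circuit l → Avail l u → Circuit ((fun x => c * u x) :: l)

/-- `ζ_n = exp(2πi/n)`. -/
noncomputable def zeta (n : ℕ) : ℂ := Complex.exp (2 * Real.pi * Complex.I / n)

/-- The `k`-th output of the discrete Fourier transform. -/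
noncomputable def dftOut (n : ℕ) (k : Fin n) : Val n :=
  fun x => ∑ j : Fin n, zeta n ^ ((k : ℕ) * (j : ℕ)) * x j

/-- `s` gates suffice to compute the discrete Fourier transform of order `n`. -/
def GatesSuffice (n s : ℕ) : Prop :=
  ∃ l : List (Val n), Circuit l ∧ l.length = s ∧ ∀ k : Fin n, Avail l (dftOut n k)

/-- `L(n)`, the least number of gates. -/
noncomputable def L (n : ℕ) : ℕ := sInf {s | GatesSuffice n s}

end Vale.Agent.P344
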