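import Vale.Agent.P344.Defs

namespace Vale.Agent.P344

variable {n : ℕ}

/-- coefficient vector -/
def co (v : Val n) : Fin n → ℂ := fun j => v (Pi.single j 1)

/-- `v` is a real vector modulo the span of `W` -/
def RealMod (W : List (Fin n → ℂ)) (u : Fin n → ℂ) : Prop :=
  ∃ ρ : Fin n → ℝ, (u - fun j => (ρ j : ℂ)) ∈ Submodule.span ℂ {w | w ∈ W}

lemma RealMod_mono {W : List (Fin n → ℂ)} {u a : Fin n → ℂ} (h : RealMod W u) :
    RealMod (a :: W) u := by
  obtain ⟨ρ, h⟩ := h
  refine ⟨ρ, Submodule.span_mono ?_ h⟩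
  intro w hw
  exact List.mem_cons_of_mem _ hw

lemma RealMod_add {W : List (Fin n → ℂ)} {u v : Fin n → ℂ} (hu : RealMod W u)
    (hv : RealMod W v) : RealMod W (u + v) := by
  obtain ⟨ρ, h1⟩ := hu
  obtain ⟨ρ', h2⟩ := hv
  refine ⟨ρ + ρ', ?_⟩
  have : (u + v - fun j => (((ρ + ρ') j : ℝ) : ℂ))
      = (u - fun j => (ρ j : ℂ)) + (v - fun j => (ρ' j : ℂ)) := by
    funext j; simp; ring
  rw [this]
  exact Submodule.add_mem _ h1 h2

lemma RealMod_sub {W : List (Fin n → ℂ)} {u v : Fin n → ℂ} (hu : RealMod W u)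
    (hv : RealMod W v) : RealMod W (u - v) := by
  obtain ⟨ρ, h1⟩ := hu
  obtain ⟨ρ', h2⟩ := hv
  refine ⟨ρ - ρ', ?_⟩
  have : (u - v - fun j => (((ρ - ρ') j : ℝ) : ℂ))
      = (u - fun j => (ρ j : ℂ)) - (v - fun j => (ρ' j : ℂ)) := by
    funext j; simp; ring
  rw [this]
  exact Submodule.sub_mem _ h1 h2

lemma RealMod_zero (W : List (Fin n → ℂ)) : RealMod W (0 : Fin n → ℂ) := by
  refine ⟨0, ?_⟩
  have : ((0 : Fin n → ℂ) - fun j => (((0 : Fin n → ℝ) j : ℝ) : ℂ)) = 0 := by
    funext j; simp
  rw [this]; exact Submodule.zero_mem _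

lemma RealMod_base (W : List (Fin n → ℂ)) (i : Fin n) :
    RealMod W (co (fun x : Fin n → ℂ => x i)) := by
  refine ⟨fun j => if j = i then 1 else 0, ?_⟩
  have : (co (fun x : Fin n → ℂ => x i) - fun j => (((if j = i then (1:ℝ) else 0) : ℝ) : ℂ)) = 0 := by
    funext j
    by_cases h : j = i
    · subst h; simp [co]
    · have h' : i ≠ j := fun hc => h hc.symm
      simp [co, h]
  rw [this]; exact Submodule.zero_mem _

/-- the complex conjugate vector -/
def cj (u : Fin n → ℂ) : Fin n → ℂ := fun j => (starRingEnd ℂ) (u j)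

lemma cj_mem_span (W : List (Fin n → ℂ)) (u : Fin n → ℂ)
    (h : u ∈ Submodule.span ℂ {w | w ∈ W}) : cj u ∈ Submodule.span ℂ {w | w ∈ W.map cj} := by
  induction h using Submodule.span_induction with
  | mem x hx =>
    apply Submodule.subset_span
    exact List.mem_map.mpr ⟨x, hx, rfl⟩
  | zero =>
    have : cj (0 : Fin n → ℂ) = 0 := by funext j; simp [cj]
    rw [this]; exact Submodule.zero_mem _
  | add x y _ _ hx hy =>
    have : cj (x + y) = cj x + cj y := by funext j; simp [cj]
    rw [this]; exact Submodule.add_mem _ hx hy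
  | smul a x _ hx =>
    have : cj (a • x) = (starRingEnd ℂ a) • cj x := by funext j; simp [cj]
    rw [this]; exact Submodule.smul_mem _ _ hx

lemma diff_mem (W : List (Fin n → ℂ)) (u : Fin n → ℂ) (h : RealMod W u) :
    u - cj u ∈ Submodule.span ℂ {w | w ∈ W ++ W.map cj} := by
  obtain ⟨ρ, h⟩ := h
  have h2 := cj_mem_span W _ h
  have e : u - cj u = (u - fun j => (ρ j : ℂ)) - cj (u - fun j => (ρ j : ℂ)) := by
    funext j; simp [cj]
  rw [e]
  apply Submodule.sub_mem
  · refine Submodule.span_mono ?_ h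
    intro w hw
    exact List.mem_append_left _ hw
  · refine Submodule.span_mono ?_ h2
    intro w hw
    exact List.mem_append_right _ hw

lemma finrank_bound (W : List (Fin n → ℂ)) :
    Module.finrank ℂ (Submodule.span ℂ {w | w ∈ W}) ≤ W.length := by
  classical
  have : {w | w ∈ W} = ((W.toFinset : Finset (Fin n → ℂ)) : Set (Fin n → ℂ)) := by
    ext w; simp
  rw [this]
  exact (finrank_span_finset_le_card _).trans W.toFinset_card_le

/-- rows of the transform -/
noncomputable def row (n : ℕ) (k : ℕ) : Fin n → ℂ := fun j => zeta n ^ (k * (j : ℕ))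

lemma rows_indep (hn : 1 ≤ n) : LinearIndependent ℂ (fun k : Fin n => row n k) := by
  have hprim : IsPrimitiveRoot (zeta n) n := Complex.isPrimitiveRoot_exp n (by omega)
  have h : (Matrix.vandermonde (fun k : Fin n => zeta n ^ (k : ℕ))).det ≠ 0 := by
    rw [Matrix.det_vandermonde_ne_zero_iff]
    intro k k' hkk
    exact Fin.ext (hprim.pow_inj k.2 k'.2 hkk)
  have h2 := Matrix.linearIndependent_rows_of_det_ne_zero h
  have he : (fun k : Fin n => row n k)
      = fun i : Fin n => Matrix.vandermonde (fun k : Fin n => zeta n ^ (k : ℕ)) i := by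
    funext k j
    simp [row, Matrix.vandermonde_apply, ← pow_mul]
  rw [he]
  exact h2

lemma cj_row (hn : 1 ≤ n) (k : ℕ) (hk : k ≤ n) : cj (row n k) = row n (n - k) := by
  funext j
  unfold cj row
  have hprim : IsPrimitiveRoot (zeta n) n := Complex.isPrimitiveRoot_exp n (by omega)
  have hnorm : ‖zeta n‖ = 1 := by
    have h : ‖zeta n‖ ^ n = 1 := by rw [← norm_pow, hprim.pow_eq_one]; simp
    exact (pow_eq_one_iff_of_nonneg (norm_nonneg _) (by omega)).mp h
  have hconj : (starRingEnd ℂ) (zeta n) = (zeta n)⁻¹ := by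
    rw [Complex.inv_def, Complex.normSq_eq_norm_sq, hnorm]; simp
  rw [map_pow, hconj, inv_pow]
  have h1 : zeta n ^ (k * (j:ℕ)) * zeta n ^ ((n - k) * (j:ℕ)) = 1 := by
    rw [← pow_add, ← add_mul, Nat.add_sub_cancel' hk, pow_mul, hprim.pow_eq_one, one_pow]
  exact inv_eq_of_mul_eq_one_right h1

lemma diffs_indep (hn : 1 ≤ n) (K : ℕ) (hK : 2 * K < n) :
    LinearIndependent ℂ (fun i : Fin K => row n (i.val + 1) - row n (n - (i.val + 1))) := by
  classical
  rw [Fintype.linearIndependent_iff]
  intro g hg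
  have hli := Fintype.linearIndependent_iff.mp (rows_indep hn)
  set b : Fin n → ℂ := fun k => ∑ i : Fin K, g i *
    ((if k.val = i.val + 1 then 1 else 0) - (if k.val = n - (i.val + 1) then 1 else 0)) with hb
  have hsum : ∑ k : Fin n, b k • row n k = 0 := by
    rw [← hg]
    simp only [hb, Finset.sum_smul]
    rw [Finset.sum_comm]
    apply Finset.sum_congr rfl
    intro i _
    have hi := i.2
    simp only [mul_sub, sub_smul, Finset.sum_sub_distrib, smul_sub]
    congr 1
    · rw [Finset.sum_eq_single (⟨i.val + 1, by omega⟩ : Fin n)]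
      · simp
      · intro k _ hk
        have : k.val ≠ i.val + 1 := fun h => hk (Fin.ext h)
        simp [this]
      · simp
    · rw [Finset.sum_eq_single (⟨n - (i.val + 1), by omega⟩ : Fin n)]
      · simp
      · intro k _ hk
        have : k.val ≠ n - (i.val + 1) := fun h => hk (Fin.ext h)
        simp [this]
      · simp
  intro i0
  have hi0 := i0.2
  have h := hli b hsum ⟨i0.val + 1, by omega⟩
  simp only [hb] at h
  rw [Finset.sum_eq_single i0] at h
  · have : i0.val + 1 ≠ n - (i0.val + 1) := by omega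
    simpa [this] using h
  · intro i _ hi
    have h1 : i0.val + 1 ≠ i.val + 1 := fun hc => hi (Fin.ext (by omega))
    have h2 : i0.val + 1 ≠ n - (i.val + 1) := by
      have := i.2; omega
    rw [if_neg h1, if_neg h2]
    simp
  · simp

lemma co_dft (k : Fin n) : co (dftOut n k) = row n k := by
  funext j
  unfold co dftOut row
  rw [Finset.sum_eq_single j]
  · simp
  · intro i _ hi
    rw [Pi.single_eq_of_ne hi, mul_zero]
  · simp

lemma scal_bound (hn : 1 ≤ n) (W : List (Fin n → ℂ))
    (hout : ∀ k : Fin n, RealMod W (co (dftOut n k))) (K : ℕ) (hK : 2 * K < n) :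
    K ≤ 2 * W.length := by
  have hmem : ∀ i : Fin K, row n (i.val + 1) - row n (n - (i.val + 1))
      ∈ Submodule.span ℂ {w | w ∈ W ++ W.map cj} := by
    intro i
    have hi := i.2
    have h1 := diff_mem W _ (hout ⟨i.val + 1, by omega⟩)
    rw [co_dft, cj_row hn _ (by simp; omega)] at h1
    exact h1
  have h2 : Submodule.span ℂ (Set.range
      (fun i : Fin K => row n (i.val + 1) - row n (n - (i.val + 1))))
      ≤ Submodule.span ℂ {w | w ∈ W ++ W.map cj} := by
    rw [Submodule.span_le]
    rintro _ ⟨i, rfl⟩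
    exact hmem i
  have h3 := Submodule.finrank_mono h2
  rw [finrank_span_eq_card (diffs_indep hn K hK), Fintype.card_fin] at h3
  have h4 := finrank_bound (W ++ W.map cj)
  simp only [List.length_append, List.length_map] at h4
  omega

end Vale.Agent.P344
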