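import Vale.Agent.P344.Kill
import Vale.Agent.P344.Scal

namespace Vale.Agent.P344

variable {n : ℕ}

lemma avail_cons {l : List (Val n)} {a v : Val n} (h : Avail (a :: l) v) : v = a ∨ Avail l v := by
  rcases h with h | h | h
  · exact Or.inr (Or.inl h)
  · exact Or.inr (Or.inr (Or.inl h))
  · rcases List.mem_cons.mp h with h | h
    · exact Or.inl h
    · exact Or.inr (Or.inr (Or.inr h))

lemma avail_mono {l : List (Val n)} {a v : Val n} (h : Avail l v) : Avail (a :: l) v := by
  rcases h with h | h | h
  · exact Or.inl h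
  · exact Or.inr (Or.inl h)
  · exact Or.inr (Or.inr (List.mem_cons_of_mem _ h))

/-- splitting the gates into additions and scalar multiplications -/
lemma count {l : List (Val n)} (h : Circuit l) :
    ∃ (l' : List (Val n)) (W : List (Fin n → ℂ)), l'.length + W.length = l.length ∧
      AC (Bt n n) l' ∧ (∀ v, Avail l v → Pr (Bt n n) l' v) ∧
      (∀ v, Avail l v → RealMod W (co v)) := by
  induction h with
  | nil =>
    refine ⟨[], [], rfl, AC.nil, ?_, ?_⟩
    · rintro v (h | ⟨i, h⟩ | h)
      · left; exact h
      · right; exact ⟨1, v, Or.inl ⟨i, i.2, h⟩, by simp⟩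
      · simp at h
    · rintro v (h | ⟨i, h⟩ | h)
      · rw [h]; exact RealMod_zero _
      · rw [h]; exact RealMod_base _ i
      · simp at h
  | @add l u v hl hu hv ih =>
    obtain ⟨l', W, hlen, hac, hp, hr⟩ := ih
    refine ⟨(u + v) :: l', W, by simp; omega, AC.cons hac (hp u hu) (hp v hv), ?_, ?_⟩
    · intro w hw
      rcases avail_cons hw with h | h
      · rw [h]; exact Pr_self _
      · exact Pr_mono (hp w h)
    · intro w hw
      rcases avail_cons hw with h | h
      · rw [h]; exact RealMod_add (hr u hu) (hr v hv)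
      · exact hr w h
  | @sub l u v hl hu hv ih =>
    obtain ⟨l', W, hlen, hac, hp, hr⟩ := ih
    have hneg : Pr (Bt n n) l' (-v) := by
      have := Pr_smul (hp v hv) (-1)
      simpa using this
    refine ⟨(u + -v) :: l', W, by simp; omega, AC.cons hac (hp u hu) hneg, ?_, ?_⟩
    · intro w hw
      rcases avail_cons hw with h | h
      · have e : w = u + -v := by rw [h]; funext x; simp [sub_eq_add_neg]
        rw [e]; exact Pr_self _
      · exact Pr_mono (hp w h)
    · intro w hw
      rcases avail_cons hw with h | h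
      · rw [h]; exact RealMod_sub (hr u hu) (hr v hv)
      · exact hr w h
  | @smul l u c hl hu ih =>
    obtain ⟨l', W, hlen, hac, hp, hr⟩ := ih
    refine ⟨l', (co (fun x => c * u x)) :: W, by simp; omega, hac, ?_, ?_⟩
    · intro w hw
      rcases avail_cons hw with h | h
      · rw [h]
        have := Pr_smul (hp u hu) c
        exact this
      · exact hp w h
    · intro w hw
      rcases avail_cons hw with h | h
      · refine ⟨0, ?_⟩
        apply Submodule.subset_span
        have : (co w - fun j => (((0 : Fin n → ℝ) j : ℝ) : ℂ)) = co (fun x => c * u x) := by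
          rw [h]; funext j; simp
        rw [this]
        exact List.mem_cons_self
      · exact RealMod_mono (hr w h)

lemma lower (hn : 2 ≤ n) {s : ℕ} (h : GatesSuffice n s) : 9 * n ≤ 4 * s + 10 := by
  obtain ⟨l, hl, hs, hout⟩ := h
  obtain ⟨l', W, hlen, hac, hp, hr⟩ := count hl
  have h1 := adds_bound hn l' hac (fun k => hp _ (hout k))
  have h2 := scal_bound (by omega) W (fun k => hr _ (hout k)) ((n - 1) / 2) (by omega)
  omega

/-- circuits exist -/
lemma extend_one {l : List (Val n)} (hl : Circuit l) (c : Fin n → ℂ) (S : Finset (Fin n)) :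
    ∃ l', Circuit l' ∧ (∀ v, Avail l v → Avail l' v) ∧ Avail l' (fun x => ∑ j ∈ S, c j * x j) := by
  classical
  induction S using Finset.induction_on with
  | empty => exact ⟨l, hl, fun _ h => h, Or.inl (by simp)⟩
  | insert i S hi ih =>
    obtain ⟨l', hl', hmono, hav⟩ := ih
    have hx : Avail l' (fun x : Fin n → ℂ => x i) := Or.inr (Or.inl ⟨i, rfl⟩)
    have h1 := Circuit.smul (c i) hl' hx
    have h2 := Circuit.add h1 (Or.inr (Or.inr List.mem_cons_self)) (avail_mono hav)
    refine ⟨_, h2, fun v hv => avail_mono (avail_mono (hmono v hv)), ?_⟩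
    right; right
    have e : (fun x : Fin n → ℂ => ∑ j ∈ insert i S, c j * x j)
        = fun x => c i * x i + ∑ j ∈ S, c j * x j := by
      funext x; rw [Finset.sum_insert hi]
    rw [e]
    exact List.mem_cons_self

lemma suffices_exists (n : ℕ) : ∃ s, GatesSuffice n s := by
  classical
  have h : ∀ K : Finset (Fin n), ∃ l : List (Val n), Circuit l ∧ ∀ k ∈ K, Avail l (dftOut n k) := by
    intro K
    induction K using Finset.induction_on with
    | empty => exact ⟨[], Circuit.nil, by simp⟩
    | insert k K hk ih =>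
      obtain ⟨l, hl, hav⟩ := ih
      obtain ⟨l', hl', hmono, hav'⟩ :=
        extend_one hl (fun j => zeta n ^ ((k : ℕ) * (j : ℕ))) Finset.univ
      refine ⟨l', hl', fun k' hk' => ?_⟩
      rcases Finset.mem_insert.mp hk' with h | h
      · rw [h]; exact hav'
      · exact hmono _ (hav k' h)
  obtain ⟨l, hl, hav⟩ := h Finset.univ
  exact ⟨l.length, l, hl, rfl, fun k => hav k (Finset.mem_univ k)⟩

theorem final (n : ℕ) (hn : 2 ≤ n) : GatesSuffice n (L n) ∧ 9 * n ≤ 4 * L n + 10 := by
  have h : GatesSuffice n (L n) := Nat.sInf_mem (s := {s | GatesSuffice n s}) (suffices_exists n)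
  exact ⟨h, lower hn h⟩

end Vale.Agent.P344
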