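import Vale.Agent.P344.Adds

namespace Vale.Agent.P344

variable {n : ℕ}

/-- restriction to the first `t` coordinates -/
def rst (t : ℕ) (v : Val n) : Val n := fun x => v (fun i => if i.val < t then x i else 0)

/-- coordinate functions with index below `t` -/
def Bt (n t : ℕ) : Set (Val n) := {v | ∃ i : Fin n, i.val < t ∧ v = fun x => x i}

/-- zero out one coordinate -/
def zo (i : Fin n) : Val n →ₗ[ℂ] Val n where
  toFun v := fun x => v (Function.update x i 0)
  map_add' := by intro u v; rfl
  map_smul' := by intro c v; rfl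

/-- evaluation at a basis vector -/
def ev (i : Fin n) : Val n →ₗ[ℂ] ℂ where
  toFun v := v (Pi.single i 1)
  map_add' := by intro u v; rfl
  map_smul' := by intro c v; rfl

lemma zo_rst (t : ℕ) (ht : t < n) (v : Val n) : zo ⟨t, ht⟩ (rst (t + 1) v) = rst t v := by
  funext x
  simp only [zo, rst, LinearMap.coe_mk, AddHom.coe_mk]
  congr 1
  funext i
  by_cases h1 : i.val < t
  · have h2 : i.val < t + 1 := by omega
    have h3 : i ≠ ⟨t, ht⟩ := by
      intro h; rw [h] at h1; simp at h1
    rw [if_pos h1, if_pos h2, Function.update_of_ne h3]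
  · rw [if_neg h1]
    by_cases h2 : i.val < t + 1
    · have h3 : i = ⟨t, ht⟩ := Fin.ext (by simp; omega)
      rw [if_pos h2, h3, Function.update_self]
    · rw [if_neg h2]

lemma rst_dft_ev (t : ℕ) (k i : Fin n) (hi : i.val < t) :
    rst t (dftOut n k) (Pi.single i 1) = zeta n ^ ((k:ℕ) * (i:ℕ)) := by
  unfold rst dftOut
  rw [Finset.sum_eq_single i]
  · simp [hi]
  · intro j _ hj
    have : (Pi.single i (1:ℂ) : Fin n → ℂ) j = 0 := Pi.single_eq_of_ne hj 1
    simp [this]
  · simp

lemma zeta_ne_zero (n : ℕ) : zeta n ≠ 0 := Complex.exp_ne_zero _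

lemma stage (l : List (Val n)) (hl : AC (Bt n n) l)
    (hout : ∀ k : Fin n, Pr (Bt n n) l (dftOut n k)) (j : ℕ) (hj : j + 2 ≤ n) :
    ∃ l', AC (Bt n (n - j)) l' ∧ l'.length + j ≤ l.length ∧
      ∀ k : Fin n, Pr (Bt n (n - j)) l' (rst (n - j) (dftOut n k)) := by
  induction j with
  | zero =>
    refine ⟨l, by simpa using hl, by simp, fun k => ?_⟩
    have : rst (n - 0) (dftOut n k) = dftOut n k := by
      funext x
      simp [rst]
    rw [this]
    simpa using hout k
  | succ j ih =>
    obtain ⟨l1, hl1, hlen, hP⟩ := ih (by omega)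
    set t := n - (j + 1) with ht
    have htn : t < n := by omega
    have ht2 : 2 ≤ t := by omega
    have hnj : n - j = t + 1 := by omega
    rw [hnj] at hl1 hP
    have h0n : 0 < n := by omega
    obtain ⟨l2, hl2, hlen2, hP2⟩ := push_strict (Bt n (t + 1)) (Bt n t) (zo ⟨t, htn⟩)
      (ev ⟨t, htn⟩) (by
        rintro b ⟨i, hi, rfl⟩
        by_cases h : i = ⟨t, htn⟩
        · left
          subst h
          funext x
          simp [zo]
        · right
          refine ⟨i, ?_, ?_⟩
          · have : i.val ≠ t := fun hc => h (Fin.ext hc)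
            omega
          · funext x
            simp [zo, Function.update_of_ne h]) (by
        rintro b ⟨i, hi, rfl⟩
        by_cases h : i = ⟨t, htn⟩
        · right
          subst h
          funext x
          simp [zo]
        · left
          simp [ev, Pi.single_eq_of_ne h]) hl1
      ⟨rst (t + 1) (dftOut n ⟨0, h0n⟩), hP _, by
        show rst (t + 1) (dftOut n ⟨0, h0n⟩) (Pi.single ⟨t, htn⟩ 1) ≠ 0
        rw [rst_dft_ev (t + 1) _ _ (by simp)]
        exact pow_ne_zero _ (zeta_ne_zero n), by
        rw [zo_rst]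
        intro hc
        have h1 := congrFun hc (Pi.single ⟨0, h0n⟩ 1)
        rw [rst_dft_ev t _ _ (by simp; omega)] at h1
        exact pow_ne_zero _ (zeta_ne_zero n) h1⟩
    refine ⟨l2, hl2, by omega, fun k => ?_⟩
    have := hP2 _ (hP k)
    rwa [zo_rst] at this

lemma adds_bound (hn : 2 ≤ n) (l : List (Val n)) (hl : AC (Bt n n) l)
    (hout : ∀ k : Fin n, Pr (Bt n n) l (dftOut n k)) : 2 * n - 2 ≤ l.length := by
  classical
  obtain ⟨l', hl', hlen, hP⟩ := stage l hl hout (n - 2) (by omega)
  have h2 : n - (n - 2) = 2 := by omega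
  rw [h2] at hl' hP
  set e0 : Fin n := ⟨0, by omega⟩
  set e1 : Fin n := ⟨1, by omega⟩
  have hv0 : ∀ k : Fin n, rst 2 (dftOut n k) (Pi.single e0 1) = 1 := by
    intro k
    rw [rst_dft_ev 2 k e0 (by simp [e0])]
    simp [e0]
  have hv1 : ∀ k : Fin n, rst 2 (dftOut n k) (Pi.single e1 1) = zeta n ^ (k:ℕ) := by
    intro k
    rw [rst_dft_ev 2 k e1 (by simp [e1])]
    simp [e1]
  have hne01 : e0 ≠ e1 := by
    intro h
    have := congrArg Fin.val h
    simp [e0, e1] at this
  have hF : ∀ k : Fin n, ∃ (c : ℂ) (v : Val n), v ∈ l' ∧ rst 2 (dftOut n k) = c • v := by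
    intro k
    rcases hP k with h | ⟨c, v, hv, h⟩
    · exfalso
      have := hv0 k
      rw [h] at this
      simp at this
    · rcases hv with ⟨i, hi, rfl⟩ | hv
      · exfalso
        have a0 := hv0 k
        have a1 := hv1 k
        rw [h] at a0 a1
        simp only [Pi.smul_apply, smul_eq_mul] at a0 a1
        by_cases hi0 : i = e0
        · subst hi0
          rw [Pi.single_eq_of_ne hne01, mul_zero] at a1
          exact pow_ne_zero _ (zeta_ne_zero n) a1.symm
        · rw [Pi.single_eq_of_ne hi0, mul_zero] at a0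
          exact zero_ne_one a0
      · exact ⟨c, v, hv, h⟩
  choose c F hF1 hF2 using hF
  have hprim : IsPrimitiveRoot (zeta n) n := Complex.isPrimitiveRoot_exp n (by omega)
  have hinj : Function.Injective F := by
    intro k k' hkk
    have a0 := hv0 k
    have b0 := hv0 k'
    have a1 := hv1 k
    have b1 := hv1 k'
    rw [hF2 k] at a0 a1
    rw [hF2 k', ← hkk] at b0 b1
    simp only [Pi.smul_apply, smul_eq_mul] at a0 a1 b0 b1
    have hv : F k (Pi.single e0 1) ≠ 0 := by
      intro h; rw [h, mul_zero] at a0; exact zero_ne_one a0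
    have hc : c k = c k' := mul_right_cancel₀ hv (a0.trans b0.symm)
    rw [hc, b1] at a1
    exact Fin.ext (hprim.pow_inj k'.2 k.2 a1).symm
  have hcard : n ≤ l'.length := by
    have h1 : (Finset.univ.image F).card = n := by
      rw [Finset.card_image_of_injective _ hinj]; simp
    have h2 : Finset.univ.image F ⊆ l'.toFinset := by
      intro v hv
      obtain ⟨k, _, rfl⟩ := Finset.mem_image.mp hv
      exact List.mem_toFinset.mpr (hF1 k)
    have h3 := Finset.card_le_card h2
    have h4 := l'.toFinset_card_le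
    omega
  omega

end Vale.Agent.P344
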